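import Vale.Agent.P014Z.Qf.Val
import Vale.Agent.P004F.Qx.Typ

/-! # P014Z, block QF: the bound on the field does not depend on the holomorphic function -/

set_option autoImplicit false
set_option linter.all false

open UpperHalfPlane NumberField CongruenceSubgroup PowerSeries
open scoped MatrixGroups Classical

noncomputable section

namespace Vale.Agent.P014Z.Qf

open Vale.Agent.P022 Vale.Agent.P022.H218.L3 Vale.Agent.P022.H231.L3 Vale.Agent.P022.H236.L3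
  Vale.Agent.P022.H542.L3 P027H Vale.Agent.P027M.M P004K P004F.Qx
open P004R.Qf (v_int Ae Ae.all ls_zero_eq val_add val_mul val_const val_uniq val_inc
  sp_list sp_sq sp_one sp_mem cop_mul cop_mem cn_nm not_mem ex_mul)
open P004Z.EF (Val RatS)
open P004F.Qx.De (vv coe_vv cj_dn cj_V)

section

variable {V : AbsoluteValue ℂ ℝ} {p M : ℕ} {E : ℤ} {τ : ℍ}

/-- the maximum principle for a holomorphic function -/
theorem mph (h : P004Z.Fin.Ov V p) (M0 : 0 < M) (d : p ∣ M) {F : ℍ → ℂ} (hF : F ∈ Hol)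
    (hm : inc F hF ∈ MF (Gamma0 M)) {s : LS} (hs : ExM 1 s (inc F hF))
    (hi : ∀ n, V (s.coeff n) ≤ 1) (H : Ty V M E τ) : V (F τ) ≤ 1 := by
  obtain ⟨c, c1, c2⟩ := mpf h M0 d hm hs hi (P := 1) one_ne_zero (f := ⟨F, hF⟩)
    (by rw [map_one, mul_one]; rfl) H (by simp)
  exact val_uniq c2 (val_inc τ hF) ▸ c1

/-- **congruent expansions give congruent values** -/
theorem agree (h : P004Z.Fin.Ov V p) (M0 : 0 < M) (d : p ∣ M) {F F' : ℍ → ℂ} (hF : F ∈ Hol)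
    (hF' : F' ∈ Hol) (hm : inc F hF ∈ MF (Gamma0 M)) (hm' : inc F' hF' ∈ MF (Gamma0 M)) {s s' : LS}
    (hs : ExM 1 s (inc F hF)) (hs' : ExM 1 s' (inc F' hF')) {ϖ : ℂ} (h0 : ϖ ≠ 0)
    (hi : ∀ n, V (s.coeff n - s'.coeff n) ≤ V ϖ) (H : Ty V M E τ) : V (F τ - F' τ) ≤ V ϖ := by
  have v0 : 0 < V ϖ := V.pos h0
  let f : Hol := algebraMap ℂ Hol ϖ⁻¹ * (⟨F, hF⟩ + algebraMap ℂ Hol (-1) * ⟨F', hF'⟩)
  have e : inc f.1 f.2 = algebraMap ℂ Mer ϖ⁻¹ * (inc F hF + algebraMap ℂ Mer (-1) * inc F' hF') := by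
    simp only [inc, f, Subtype.coe_eta, map_mul, map_add, ← IsScalarTower.algebraMap_apply]
  have k := mph h M0 d f.2 (e ▸ mul_mem (algebraMap_mem _ _) (add_mem hm
    (mul_mem (algebraMap_mem _ _) hm'))) (e ▸ (ExM.const 1 _).mul (hs.add ((ExM.const 1 _).mul hs')))
    (fun n => by
      simp only [HahnSeries.C_mul_eq_smul, HahnSeries.coeff_smul, HahnSeries.coeff_add, smul_eq_mul]
      rw [V.map_mul, map_inv₀, inv_mul_le_one₀ v0, neg_one_mul, ← sub_eq_add_neg]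
      exact hi n) H
  change V (ϖ⁻¹ * (F τ + -1 * F' τ)) ≤ 1 at k
  rwa [V.map_mul, map_inv₀, inv_mul_le_one₀ v0, neg_one_mul, ← sub_eq_add_neg] at k

theorem aty {P : Ideal (𝓞 Qb)} (hP : P.IsPrime) (hV : Vp V P) (M0 : 0 < M) :
    Ae P M fun τ => ∃ E, Ty V M E τ :=
  ⟨0, fun δ _ sf K _ _ j q c θ I I' hθ sp hI hc g hg σ τ τ' ex h1 h2 =>
    (typ K j q M c δ θ I I' P V M0 hθ sf.ne_zero sp hP hV hI hc g hg σ τ τ' ex h1 h2).imp
      fun _ k => k.1⟩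

variable {α β : ℕ → ℤ}

theorem dq_hol {F : ℍ → ℂ} (hF : F ∈ Hol) {L : List ℕ} (h0 : 0 < L.prod) :
    ∃ f : Hol, dq α β (vk (inc F hF)) L 1 = inc f.1 f.2 ∧
      ∀ τ, f.1 τ = dq α β (fun k => F (vv k τ)) L 1 := by
  obtain ⟨f, e⟩ : ∃ f : Hol, dq α β (vk (inc F hF)) L 1 = algebraMap Hol Mer f := by
    refine dq_rel (fun x (_ : Mer) => ∃ f : Hol, x = algebraMap Hol Mer f)
      (fun n => ⟨n, by simp⟩) (fun _ _ _ _ ⟨f, a⟩ ⟨g, b⟩ => ⟨f + g, by rw [a, b, map_add]⟩)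
      (fun _ _ _ _ ⟨f, a⟩ ⟨g, b⟩ => ⟨f * g, by rw [a, b, map_mul]⟩) _ (vk (inc F hF)) L 1
      fun k hk => ?_
    rw [one_mul, vk, dif_pos (Nat.pos_of_dvd_of_pos hk (pow_pos h0 2)), pbz, pb_inc]
    exact ⟨_, rfl⟩
  refine ⟨f, e, fun τ => val_uniq (val_inc τ f.2) ?_⟩
  rw [show inc f.1 f.2 = _ from e.symm]
  refine dq_rel (Val τ) (fun n => by simpa only [map_intCast] using val_const τ (n : ℂ))
    (fun _ _ _ _ => val_add) (fun _ _ _ _ => val_mul) _ _ L 1 fun k hk => ?_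
  rw [one_mul]
  exact val_vk hF (Nat.pos_of_dvd_of_pos hk (pow_pos h0 2)) τ

variable {A : Type} [CommRing A] {ι : A →+* ℂ}

theorem cf (hV : IsNonarchimedean V) (hp : p.Prime) (h3 : V p < 1) (hι : ∀ x, V (ι x) ≤ 1)
    {π D : A} (p0 : ι π ≠ 0) (hπ : π ∣ p) {S L : List ℕ} (hS : ∀ l ∈ S, l.Prime) (pS : p ∈ S)
    (hL : L.Nodup) (sb : ∀ l ∈ L, l ∈ S) {a : ℕ → ℤ} {W : A⟦X⟧} (hW : Sr π D W α β a S L) {s : LS}
    (hz : Zq p s) (hc : Cq p (dp S.prod a) s) (n : ℤ) :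
    V (ι D * s.coeff n - (ls 0 (map ι (dq α β (xp W) L 1))).coeff n) ≤ V (ι π) := by
  have c0 := fun n => co_dq L hL (fun l h => hS l (sb l h)) hW.rc n 1 one_pos
  simp only [one_dvd, true_and, Nat.div_one] at c0
  have k := coef hV hp h3 hι p0 hπ (List.dvd_prod pS) hz hc (D := D) (W := dq α β (xp W) L 1)
    (fun n hn => by
      have k := c0 n
      rw [if_pos (Nat.coprime_list_prod_right_iff.2 fun l h =>
        hn.coprime_dvd_right (List.dvd_prod (sb l h)))] at k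
      convert (k.mul_left n).add (hW.cmp n hn) using 1
      ring) (fun n hn => by
      have k := c0 n
      split_ifs at k with h
      · rw [Nat.coprime_list_prod_right_iff] at hn h
        push Not at hn
        obtain ⟨l, hl, k1⟩ := hn
        obtain ⟨m, rfl⟩ : l ∣ n := by
          by_contra k2
          exact k1 ((hS l hl).coprime_iff_not_dvd.2 k2).symm
        simpa using k.add (hW.van l hl (fun e => k1 (h l e)) m)
      · simpa using k) n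
  simp only [HahnSeries.C_mul_eq_smul, HahnSeries.coeff_smul, HahnSeries.coeff_add,
    smul_eq_mul] at k
  rwa [V.map_mul, map_inv₀, inv_mul_le_one₀ (V.pos p0), neg_one_mul, ← sub_eq_add_neg] at k

/-- **the comparison**, for all functions at once -/
theorem cmpu (mpc : MPC) {P : Ideal (𝓞 Qb)} {M₀ : ℕ} {S L : List ℕ} (hP : P.IsPrime)
    (P0 : P ≠ ⊥) (hV : Vp V P) (hp : p.Prime) (h3 : V p < 1) (hι : ∀ x, V (ι x) ≤ 1) {π D : A}
    (p0 : ι π ≠ 0) (hπ : π ∣ p) (hM : 0 < M) (pM : p ∣ M) (hS : ∀ l ∈ S, l.Prime) (pS : p ∈ S)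
    (hL : L.Nodup) (sb : ∀ l ∈ L, l ∈ S) (hd : M₀ * L.prod ^ 2 ∣ M) {a : ℕ → ℤ} {u : Mer}
    (hu : u ∈ MF (Gamma0 M)) {s : LS} (hs : ExM 1 s u) (hz : Zq p s) (hc : Cq p (dp S.prod a) s) :
    Ae P M fun τ => ∀ (W : A⟦X⟧) (F : ℍ → ℂ) (hF : F ∈ Hol), Sr π D W α β a S L →
      inc F hF ∈ MF (Gamma0 M₀) → ExM 1 (ls 0 (map ι W)) (inc F hF) → V (F τ) ≤ 1 ∧
      ∀ y, Val τ u y → V (ι D * y - dq α β (fun k => F (vv k τ)) L 1) ≤ V (ι π) := by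
  by_cases ex : ∃ (W : A⟦X⟧) (F : ℍ → ℂ) (hF : F ∈ Hol), Sr π D W α β a S L ∧
    inc F hF ∈ MF (Gamma0 M₀) ∧ ExM 1 (ls 0 (map ι W)) (inc F hF)
  swap
  · exact (aty hP hV hM).mono fun τ _ W F hF a b c => (ex ⟨W, F, hF, a, b, c⟩).elim
  obtain ⟨W₀, F₀, hF₀, a₀, b₀, c₀⟩ := ex
  have o : P004Z.Fin.Ov V p := ⟨hp, hV.1, h3⟩
  have h0 : 0 < M₀ := Nat.pos_of_dvd_of_pos ((dvd_mul_right _ _).trans hd) hM
  have l0 : 0 < L.prod := pos_list hS sb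
  refine ((cmp mpc hP P0 hV hp h3 hι p0 hπ hM hS pS hL sb hd a₀ hF₀ b₀ c₀ hu hs hz hc).and
    (aty hP hV hM)).mono fun τ ⟨⟨_, k⟩, E, H⟩ W F hF a b c => ⟨?_, fun y hy => ?_⟩
  · refine mph o hM pM hF (MF_mono (G0_le ((dvd_mul_right _ _).trans hd)) b) c (fun n => ?_) H
    rcases lt_or_ge n 0 with h | h
    · rw [coeff_ls_of_lt _ _ h]
      simp
    obtain ⟨n, rfl⟩ := Int.eq_ofNat_of_zero_le h
    have e := coeff_ls 0 (map ι W) n
    rw [zero_add, coeff_map] at e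
    rw [e]
    exact hι _
  obtain ⟨x1, x2⟩ := ex_dq (α := α) (β := β) ι c h0 b L hd
  obtain ⟨y1, y2⟩ := ex_dq (α := α) (β := β) ι c₀ h0 b₀ L hd
  obtain ⟨f, e1, e2⟩ := dq_hol (α := α) (β := β) hF l0
  obtain ⟨f₀, e3, e4⟩ := dq_hol (α := α) (β := β) hF₀ l0
  rw [e1] at x1 x2
  rw [e3] at y1 y2
  have t := agree o hM pM f₀.2 f.2 y2 x2 y1 x1 p0 (fun n => by
    have := hV.1 (ι D * s.coeff n - (ls 0 (map ι (dq α β (xp W) L 1))).coeff n)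
      (-(ι D * s.coeff n - (ls 0 (map ι (dq α β (xp W₀) L 1))).coeff n))
    rw [V.map_neg, ← sub_eq_add_neg, sub_sub_sub_cancel_left] at this
    exact this.trans (max_le (cf hV.1 hp h3 hι p0 hπ hS pS hL sb a hz hc n)
      (cf hV.1 hp h3 hι p0 hπ hS pS hL sb a₀ hz hc n))) H
  rw [e2, e4] at t
  have := hV.1 (ι D * y - dq α β (fun k => F₀ (vv k τ)) L 1)
    (dq α β (fun k => F₀ (vv k τ)) L 1 - dq α β (fun k => F (vv k τ)) L 1)
  rw [sub_add_sub_cancel] at this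
  exact this.trans (max_le (k y hy) t)

end

/-- **the depleted form is the depleted function at the conjugates of Heegner points** -/
theorem valu (mpc : MPC) (vex : VEX) (hg1 : HG1) (rc2 : P004K.RC2) (tr0 : TR0) {p N : ℕ} {a : ℕ → ℤ}
    {S : List ℕ} (hN : 0 < N) (hp : ∀ l ∈ S, l.Prime) (pS : p ∈ S) {u : Mer}
    (hu : u ∈ MF (Gamma0 (N * S.prod ^ 2))) {s : LS} (hs : ExM 1 s u) (hz : Zq p s)
    (hc : Cq p (dp S.prod a) s) {P : ℕ → Ideal (𝓞 Qb)}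
    (hP : ∀ l ∈ S, (P l).IsPrime ∧ (l : 𝓞 Qb) ∈ P l) {A : Type} [CommRing A] (κ : A →+* Qb)
    (hκ : ∀ x, Ip (P p) (κ x)) {π D : A} (p0 : κ π ≠ 0) (p1 : Zp (P p) (κ π)) (hπ : π ∣ p)
    {T L : List ℕ} (hT : ∀ l ∈ T, l ∈ S)
    (hL : ∀ l ∈ L, l ∈ S) (nd : L.Nodup) (α β : ℕ → ℤ) :
    ∃ T₀ : ℕ, ∀ δ, T₀ ≤ δ → Squarefree δ →
    ∀ (K : Type) [Field K] [NumberField K] (j : K →+* Qb), Iq K → ∀ θ : 𝓞 K,
    θ ^ 2 = -(δ : 𝓞 K) → ∀ I I' Q φ, Ch j N I I' S P Q φ →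
    ∀ c : ℕ, 0 < c → c.Coprime (N * S.prod) →
    ∀ (W : A⟦X⟧) (F : ℍ → ℂ) (hF : F ∈ Hol), Sr π D W α β a S L → inc F hF ∈ MF (Gamma0 T.prod) →
    ExM 1 (ls 0 (map ((io : Qb →+* ℂ).comp κ) W)) (inc F hF) → ∀ h : GQ → Qb,
    (∀ g ∈ GK j, ∀ σ τ τ', Ex σ g → Hp (JJ j) T.prod (il j P T) c τ → Cj0 σ T.prod τ τ' →
      F τ' = io (h g)) →
    ∀ g ∈ GK j, Ip (P p) (h g) ∧ ∀ σ τ τ', Ex σ g →
      Hp (JJ j) (N * S.prod ^ 2) (IM j I S P) c τ → Cj0 σ (N * S.prod ^ 2) τ τ' →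
      ∀ y : Qb, Val τ' u (io y) → Zp (P p) (κ D * y - dpl α β φ h L g) := by
  have pp := hp p pS
  have P0 : P p ≠ ⊥ := fun e =>
    pp.ne_zero (Nat.cast_eq_zero.1 (Ideal.mem_bot.1 (e ▸ (hP p pS).2)))
  obtain ⟨V, hV⟩ := vex (P p) (hP p pS).1 P0
  have one : (1 : 𝓞 Qb) ∉ P p := fun h => (hP p pS).1.ne_top ((Ideal.eq_top_iff_one _).2 h)
  have v1 : ∀ x : 𝓞 Qb, x ∈ P p → V (io (x : Qb)) < 1 := fun x h =>
    (hV.2 _).2.1 ⟨1, x, one, h, by simp⟩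
  have v2 : ∀ x, V ((io : Qb →+* ℂ).comp κ x) ≤ 1 := fun x => (hV.2 _).1.1 (hκ x)
  have v3 : V p < 1 := by simpa using v1 p (hP p pS).2
  let U := (S ++ S) ++ (T ++ (L ++ L))
  have hS2 : ∀ l ∈ S ++ S, l ∈ S := fun l h => (List.mem_append.1 h).elim id id
  have hL2 : ∀ l ∈ L ++ L, l ∈ S := fun l h => (List.mem_append.1 h).elim (hL l) (hL l)
  have hT2 : ∀ l ∈ T ++ (L ++ L), l ∈ S := fun l h => (List.mem_append.1 h).elim (hT l) (hL2 l)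
  have hU : ∀ l ∈ U, l ∈ S := fun l h => (List.mem_append.1 h).elim (hS2 l) (hT2 l)
  have eM : N * U.prod = N * S.prod ^ 2 * (T ++ (L ++ L)).prod := by
    simp only [U, List.prod_append]
    ring
  have e0 : N * (S ++ S).prod = N * S.prod ^ 2 := by rw [List.prod_append, pow_two]
  have hM : 0 < N * U.prod := Nat.mul_pos hN (pos_list hp hU)
  have hM0 : 0 < N * S.prod ^ 2 := e0 ▸ Nat.mul_pos hN (pos_list hp hS2)
  obtain ⟨T₀, hT₀⟩ := cmpu (α := α) (β := β) (D := D) (M₀ := T.prod) mpc (hP p pS).1 P0 hV pp v3 v2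
    (fun z => p0 (P004K.io_inj (z.trans (map_zero _).symm))) hπ hM
    (eM ▸ (((List.dvd_prod pS).pow two_ne_zero).mul_left _).mul_right _) hp pS nd hL
    (by rw [eM, List.prod_append, List.prod_append, pow_two]; exact dvd_mul_left _ _)
    (MF_mono (G0_le (eM ▸ dvd_mul_right _ _)) hu) hs hz hc
  refine ⟨T₀, fun δ d1 d2 K _ _ j hK θ hθ I I' Q φ ch c c0 cp W F hF hW hm hx h hh g hg => ?_⟩
  have cS := cp.coprime_mul_left_right
  have cN := cp.coprime_mul_right_right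
  have sp := sp_list hp ch.spl U hU _ _ _ hN ch.lev ch.cop
  have le : I * il j P U ≤ below j (P p) := Ideal.mul_le_right.trans
    (Ideal.le_of_dvd (List.dvd_prod (List.mem_map_of_mem (by simp [U, pS]))))
  have c2 : (c : 𝓞 Qb) ∉ P p := not_mem (hP p pS).1 (hP p pS).2
    (cS.coprime_dvd_right (List.dvd_prod pS)).symm P0
  obtain ⟨τ₁, h1⟩ := (hg1 K j hK _ c _ hM c0 (cN.mul_right (cop_list cS hU)) sp.cn).1
  have key : ∀ σ τ₁', Ex σ g → Cj0 σ (N * U.prod) τ₁ τ₁' → ∀ B : List ℕ, B.Subperm (L ++ L) →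
      F (vv B.prod τ₁') = io (h (g * (B.map φ).prod)) := fun σ τ₁' hσ cj B sb => by
    obtain ⟨B', pm⟩ : ∃ B', (L ++ L).Perm (B' ++ B) := by
      obtain ⟨l, k1, k2⟩ := sb
      obtain ⟨L', pm⟩ := k2.exists_perm_append
      exact ⟨L', (pm.trans (k1.append_right L')).trans List.perm_append_comm⟩
    have m0 : ∀ l ∈ B' ++ B, l ∈ S := fun l k => hL2 l (pm.mem_iff.2 k)
    have m1 : ∀ l ∈ B, l ∈ S := fun l k => m0 l (List.mem_append_right _ k)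
    have m2 : ∀ l ∈ S ++ S ++ B', l ∈ S := fun l k => (List.mem_append.1 k).elim (hS2 l)
      fun k => m0 l (List.mem_append_left _ k)
    have m3 : ∀ l ∈ T ++ (S ++ S ++ B'), l ∈ S := fun l k => (List.mem_append.1 k).elim (hT l) (m2 l)
    have pU : U.Perm ((T ++ (S ++ S ++ B')) ++ B) := by
      refine ((pm.append_left T).append_left (S ++ S)).trans ?_
      rw [List.perm_iff_count]
      intro x
      simp only [List.count_append]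
      ring
    have h2 : Hp (JJ j) (N * U.prod) (I * il j P U) c τ₁ := h1
    rw [pU.prod_eq, il_perm pU] at h2
    rw [pU.prod_eq, List.prod_append, ← mul_assoc] at cj
    obtain ⟨k1, k2⟩ := hp_dn hg1 rc2 hK hp pS hP ch c0 cS hN cN ch.lev ch.cop m3 m1 h2
    obtain ⟨σ', hσ'⟩ := ex_ex (B.map φ).prod
    have k3 := (k2 σ' hσ').trans (cj_V (Nat.mul_pos hN (pos_list hp m3)) (pos_list hp m1) cj)
    have k4 := (hp_dn hg1 rc2 hK hp pS hP ch c0 cS hN cN ch.lev ch.cop hT m2 k1).1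
    rw [List.prod_append, mul_left_comm] at k3
    exact hh _ (mul_mem hg (ar_list rc2 hK hp pS hP ch c0 cS B m1).2.1) _ τ₁ _ (ex_mul' hσ hσ')
      (hp_N hg1 hK hN hp ch c0 cp hT k4)
      (cj_dn (pos_list hp hT) (Nat.mul_pos hN (pos_list hp m2)) k3)
  constructor
  · obtain ⟨σ, hσ⟩ := ex_ex g
    obtain ⟨τ₁', cj⟩ := ex_cj0 σ hM τ₁
    have k1 := (hT₀ δ d1 d2 K j hK c θ _ _ hθ sp le c2 g hg σ τ₁ τ₁' hσ h1 cj W F hF hW hm hx).1
    have k2 := key σ τ₁' hσ cj [] List.nil_subperm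
    have e : vv 1 τ₁' = τ₁' := UpperHalfPlane.ext (by rw [coe_vv one_pos]; simp)
    rw [List.prod_nil, e, List.map_nil, List.prod_nil, mul_one] at k2
    rw [(hV.2 _).1, ← k2]
    exact k1
  intro σ τ τ' hσ hτ cj y hy
  obtain ⟨τ₁', cj1⟩ := ex_cj0 σ hM τ₁
  have k0 := (hp_dn hg1 rc2 hK hp pS hP ch c0 cS hN cN ch.lev ch.cop hS2 hT2 h1).1
  have eI : I * il j P (S ++ S) = IM j I S P := by
    rw [IM, il, List.map_append, List.prod_append, pow_two]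
  rw [e0, eI] at k0
  obtain ⟨γ, hγ, e⟩ := ((hg1 K j hK _ c _ hM0 c0 (e0 ▸ cN.mul_right (cop_list cS hS2))
    (sp_sq hp ch.spl (fun _ => id) hN ch.lev ch.cop).cn).2.1 τ τ₁ hτ).1 k0
  have c3 : Cj0 σ (N * S.prod ^ 2) τ τ₁' :=
    ((cj_dn hM0 (pos_list hp hT2) (eM ▸ cj1)).src hM0).2 ⟨γ⁻¹, inv_mem hγ, by rw [← e, inv_smul_smul]⟩
  have c4 : Cj0 1 (N * S.prod ^ 2) τ' τ₁' := by simpa using (cj.symm hM0).trans c3
  have y1 : Val τ₁' u (io y) := tr0 1 _ τ' τ₁' hM0 c4 u hu s hs (rat_of hz) _ hy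
  have k1 := (hT₀ δ d1 d2 K j hK c θ _ _ hθ sp le c2 g hg σ τ₁ τ₁' hσ h1 cj1 W F hF hW hm hx).2 _ y1
  have k2 := dpl_dq (α := α) (β := β) h φ (fun k => F (vv k τ₁')) L 1 g fun B sb => by
    rw [one_mul, key σ τ₁' hσ cj1 B sb]
  rw [(hV.2 _).2, map_sub, map_mul, ← k2]
  exact k1.trans_lt ((hV.2 _).2.1 p1)

end Vale.Agent.P014Z.Qf
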