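import Vale.Agent.P014Z.Qf.Gen

/-! # P014Z, block QF: series of Eisenstein type -/

set_option autoImplicit false
set_option linter.all false

open PowerSeries Finset

noncomputable section

namespace Vale.Agent.P014Z.Qf

variable {k : Type} [CommRing k]

/-- `∑ f d g m` over `d m = n` -/
def cv (f g : ℕ → k) (n : ℕ) : k := ∑ x ∈ n.divisorsAntidiagonal, f x.1 * g x.2

/-- completely multiplicative -/
def Cm (f : ℕ → k) : Prop := ∀ a b, f (a * b) = f a * f b

namespace Se

/-- the arithmetic function -/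
def af (f : ℕ → k) : ArithmeticFunction k := ⟨fun n => if n = 0 then 0 else f n, if_pos rfl⟩

/-- the shift -/
def dl (l : ℕ) (c : k) : ArithmeticFunction k := af fun n => if n = l then c else 0

theorem af_mul (f g : ℕ → k) (n : ℕ) : (af f * af g) n = cv f g n := by
  rw [ArithmeticFunction.mul_apply, cv]
  refine sum_congr rfl fun x hx => ?_
  exact congrArg₂ (· * ·) (if_neg (Nat.left_ne_zero_of_mem_divisorsAntidiagonal hx))
    (if_neg (Nat.right_ne_zero_of_mem_divisorsAntidiagonal hx))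

theorem dl_mul {l : ℕ} (hl : 0 < l) (c : k) (e : ArithmeticFunction k) (n : ℕ) :
    (dl l c * e) n = if l ∣ n then c * e (n / l) else 0 := by
  rw [ArithmeticFunction.mul_apply]
  have v : ∀ d, dl l c d = if d = l then c else 0 := fun d => by
    show (if d = 0 then 0 else if d = l then c else 0) = _
    split_ifs with a b <;> first | rfl | omega
  rcases eq_or_ne n 0 with rfl | n0
  · simp
  split_ifs with h
  · obtain ⟨m, rfl⟩ := h
    rw [sum_eq_single (l, m), v, if_pos rfl, Nat.mul_div_cancel_left _ hl]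
    · rintro ⟨d, m'⟩ hx ne
      rw [v, if_neg, zero_mul]
      rintro rfl
      exact ne (Prod.ext rfl (Nat.eq_of_mul_eq_mul_left hl (Nat.mem_divisorsAntidiagonal.1 hx).1))
    · exact fun h => absurd (Nat.mem_divisorsAntidiagonal.2 ⟨rfl, n0⟩) h
  · refine sum_eq_zero fun x hx => ?_
    rw [v, if_neg, zero_mul]
    intro e
    exact h ⟨x.2, by rw [← e, (Nat.mem_divisorsAntidiagonal.1 hx).1]⟩

theorem dep {f : ℕ → k} (hf : Cm f) {l : ℕ} (hl : 0 < l) {n : ℕ} (h : l ∣ n) :
    (af f + dl l (-f l) * af f) n = 0 := by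
  rw [ArithmeticFunction.add_apply, dl_mul hl, if_pos h]
  obtain ⟨m, rfl⟩ := h
  rw [Nat.mul_div_cancel_left _ hl]
  show (if l * m = 0 then 0 else f (l * m)) + -f l * (if m = 0 then 0 else f m) = 0
  rcases eq_or_ne m 0 with rfl | m0
  · simp
  · rw [if_neg (mul_ne_zero hl.ne' m0), if_neg m0, hf]
    ring

end Se

open Se in
/-- the recursion -/
theorem cv_rec {f g : ℕ → k} (hf : Cm f) (hg : Cm g) {l : ℕ} (hl : l.Prime) (m : ℕ) :
    cv f g (l * m) - (f l + g l) * cv f g m +
      (if l ∣ m then f l * g l * cv f g (m / l) else 0) = 0 := by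
  have z : ((af f + dl l (-f l) * af f) * (af g + dl l (-g l) * af g)) (l * m) = 0 := by
    rw [ArithmeticFunction.mul_apply]
    refine sum_eq_zero fun x hx => ?_
    rcases (Nat.Prime.dvd_mul hl).1 ((Nat.mem_divisorsAntidiagonal.1 hx).1 ▸ dvd_mul_right l m)
      with h | h
    · rw [dep hf hl.pos h, zero_mul]
    · rw [dep hg hl.pos h, mul_zero]
  rw [show (af f + dl l (-f l) * af f) * (af g + dl l (-g l) * af g) = af f * af g +
    dl l (-f l) * (af f * af g) + dl l (-g l) * (af f * af g) +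
    dl l (-f l) * (dl l (-g l) * (af f * af g)) by ring] at z
  simp only [ArithmeticFunction.add_apply, dl_mul hl.pos, dvd_mul_right, if_true,
    Nat.mul_div_cancel_left _ hl.pos, af_mul] at z
  split_ifs at z ⊢ <;> linear_combination z

theorem cv_van {f g : ℕ → k} (hf : Cm f) (hg : Cm g) {l : ℕ} (hl : l.Prime) (h : f l = 0)
    (h' : g l = 0) (m : ℕ) : cv f g (l * m) = 0 := by
  simpa [h, h'] using cv_rec hf hg hl m

/-- **the hypotheses of the comparison** -/
theorem sr_of {A : Type} [CommRing A] (q : A →+* k) {π D : A} (hq : ∀ x, q x = 0 → π ∣ x)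
    {W : A⟦X⟧} {f g : ℕ → k} (hf : Cm f) (hg : Cm g) (hW : ∀ n, q (coeff n W) = q D * cv f g n)
    {α β a : ℕ → ℤ} {S L : List ℕ} (hS : ∀ l ∈ S, l.Prime) (hL : ∀ l ∈ L, l ∈ S)
    (h1 : ∀ l ∈ L, (α l : k) = f l + g l ∧ (β l : k) = f l * g l)
    (h2 : ∀ l ∈ S, l ∉ L → f l = 0 ∧ g l = 0)
    (h3 : ∀ n : ℕ, n.Coprime S.prod → (a n : k) = n * cv f g n) : Sr π D W α β a S L := by
  refine ⟨fun l h m => hq _ ?_, fun l h h' m => hq _ ?_, fun n h => hq _ ?_⟩
  · have := cv_rec hf hg (hS l (hL l h)) m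
    rw [map_add, map_sub, map_mul, map_intCast, hW, hW, (h1 l h).1]
    split_ifs at this ⊢
    · rw [map_mul, map_intCast, hW, (h1 l h).2]
      linear_combination q D * this
    · rw [map_zero]
      linear_combination q D * this
  · rw [hW, cv_van hf hg (hS l h) (h2 l h h').1 (h2 l h h').2, mul_zero]
  · rw [map_sub, map_mul, map_mul, map_natCast, map_intCast, hW, h3 n h]
    ring

end Vale.Agent.P014Z.Qf
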