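import Vale.Agent.P014Z.Qf.Gen
import Vale.Agent.P004K.Tr

/-! # P014Z, block QF: the values at the conjugates of Heegner points -/

set_option autoImplicit false
set_option linter.all false

open UpperHalfPlane NumberField CongruenceSubgroup PowerSeries
open scoped MatrixGroups Classical

noncomputable section

namespace Vale.Agent.P014Z.Qf

open Vale.Agent.P022 Vale.Agent.P022.H218.L3 Vale.Agent.P022.H231.L3 Vale.Agent.P022.H236.L3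
  Vale.Agent.P022.H542.L3 P027H Vale.Agent.P027M.M P004K P004F.Qx
open P004R.Qf (v_int Ae Ae.all ls_zero_eq val_add val_mul val_const val_uniq val_inc
  sp_list sp_sq sp_one sp_mem cop_mul cop_mem cn_nm not_mem ex_mul)
open P004Z.EF (Val RatS)
open P004F.Qx.De (vv coe_vv cj_dn cj_V)

section arith

variable {K : Type} [Field K] [NumberField K] {j : K →+* Qb} {N c : ℕ} {S : List ℕ}
  {P : ℕ → Ideal (𝓞 Qb)} {I I' : Ideal (𝓞 K)} {Q : ℕ → Ideal (𝓞 K)} {φ : ℕ → GQ}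

/-- the ideal of a list of primes -/
abbrev il (j : K →+* Qb) (P : ℕ → Ideal (𝓞 Qb)) (L : List ℕ) : Ideal (𝓞 K) :=
  (L.map fun p => below j (P p)).prod

theorem ar_list (rc2 : P004K.RC2) (hK : Iq K) (hp : ∀ p ∈ S, p.Prime) {p : ℕ} (h2 : p ∈ S)
    (hP : ∀ p ∈ S, (P p).IsPrime ∧ (p : 𝓞 Qb) ∈ P p) (ch : Ch j N I I' S P Q φ) (hc : 0 < c)
    (cp : c.Coprime S.prod) (L : List ℕ) (hL : ∀ p ∈ L, p ∈ S) :
    Cop c (il j P L) ∧ Ar j c (il j P L) (L.map φ).prod := by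
  obtain ⟨-, -, r3, -, -, -, r7⟩ := rc2 K j hK c hc
  have c1 : ∀ p ∈ S, p.Coprime c := fun p h => (cp.coprime_dvd_right (List.dvd_prod h)).symm
  have n0 : ∀ p ∈ S, P p ≠ ⊥ := fun p h e =>
    (hp p h).ne_zero (Nat.cast_eq_zero.1 (Ideal.mem_bot.1 (e ▸ (hP p h).2)))
  have n1 : ∀ p ∈ S, (c : 𝓞 Qb) ∉ P p := fun p h =>
    not_mem (hP p h).1 (hP p h).2 (c1 p h) (n0 p h)
  induction L with
  | nil =>
    have := r7 (P p) (hP p h2).1 (n0 p h2) (n1 p h2) 1 (one_mem _) 0 (by simp)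
    rw [pow_zero] at this
    simp only [il, List.map_nil, List.prod_nil]
    exact ⟨cop_mem (m := 1) (by simp) one_pos (Nat.coprime_one_left c), this⟩
  | cons p L ih =>
    have h1 := hL p List.mem_cons_self
    obtain ⟨i1, i2⟩ := ih fun q hq => hL q (List.mem_cons_of_mem _ hq)
    have a1 := cop_mem (sp_mem (ch.spl p h1)).1 (hp p h1).pos (c1 p h1)
    have a2 := r7 (P p) (hP p h1).1 (n0 p h1) (n1 p h1) (φ p) (ch.mem p h1) 1 (by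
      rw [pow_one, cn_nm (ch.spl p h1).cn]
      exact ch.frb p h1)
    rw [pow_one] at a2
    simp only [il, List.map_cons, List.prod_cons]
    exact ⟨cop_mul a1 i1, r3 _ _ _ _ a1 i1 a2 i2⟩

theorem pos_list (hp : ∀ p ∈ S, p.Prime) {A : List ℕ} (h : ∀ p ∈ A, p ∈ S) : 0 < A.prod :=
  List.prod_pos fun p k => (hp p (h p k)).pos

theorem cop_list (cp : c.Coprime S.prod) {A : List ℕ} (h : ∀ p ∈ A, p ∈ S) : c.Coprime A.prod :=
  Nat.coprime_list_prod_right_iff.2 fun p k => cp.coprime_dvd_right (List.dvd_prod (h p k))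

/-- from the level `N A B` to the level `N A`, and the point `B τ` -/
theorem hp_dn (hg1 : HG1) (rc2 : P004K.RC2) (hK : Iq K) (hp : ∀ p ∈ S, p.Prime) {p : ℕ}
    (h2 : p ∈ S) (hP : ∀ p ∈ S, (P p).IsPrime ∧ (p : 𝓞 Qb) ∈ P p) (ch : Ch j N I I' S P Q φ)
    (hc : 0 < c) (cp : c.Coprime S.prod) {n : ℕ} {J J' : Ideal (𝓞 K)} (hn : 0 < n)
    (cn : c.Coprime n) (sp : Sp n J J') (k : ∀ p ∈ S, J' ⊔ below j (P p) = ⊤ ∧ J ⊔ Q p = ⊤)
    {A B : List ℕ} (hA : ∀ p ∈ A, p ∈ S) (hB : ∀ p ∈ B, p ∈ S) {τ : ℍ}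
    (hτ : Hp (JJ j) (n * (A ++ B).prod) (J * il j P (A ++ B)) c τ) :
    Hp (JJ j) (n * A.prod) (J * il j P A) c τ ∧
      ∀ σ, Ex σ (B.map φ).prod → Cj0 σ (n * A.prod) τ (vv B.prod τ) := by
  have s0 := (sp_list hp ch.spl (A ++ B) (fun p h => (List.mem_append.1 h).elim (hA p) (hB p))
    _ _ _ hn sp k).cn
  have s1 := (sp_list hp ch.spl A hA _ _ _ hn sp k).cn
  have s2 := (sp_list hp ch.spl B hB _ _ _ one_pos sp_one (by simp)).cn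
  rw [one_mul, Ideal.top_mul] at s2
  simp only [il, List.map_append, List.prod_append, ← mul_assoc] at s0 hτ
  have := (hg1 K j hK _ c _ (Nat.mul_pos hn (pos_list hp hA)) hc (cn.mul_right (cop_list cp hA))
    s1).2.2.2.2 _ _ τ (pos_list hp hB) (cop_list cp hB) s0 s2 hτ
  exact ⟨this.1, fun σ hσ => this.2 _ σ _ (ar_list rc2 hK hp h2 hP ch hc cp B hB).2 hσ
    (coe_vv (pos_list hp hB) τ)⟩

/-- forgetting the level `N` -/
theorem hp_N (hg1 : HG1) (hK : Iq K) (hN : 0 < N) (hp : ∀ p ∈ S, p.Prime)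
    (ch : Ch j N I I' S P Q φ) (hc : 0 < c) (cp : c.Coprime (N * S.prod)) {A : List ℕ}
    (hA : ∀ p ∈ A, p ∈ S) {τ : ℍ} (hτ : Hp (JJ j) (N * A.prod) (I * il j P A) c τ) :
    Hp (JJ j) A.prod (il j P A) c τ := by
  have s0 := (sp_list hp ch.spl A hA _ _ _ hN ch.lev ch.cop).cn
  have s2 := (sp_list hp ch.spl A hA _ _ _ one_pos sp_one (by simp)).cn
  rw [one_mul, Ideal.top_mul] at s2
  rw [mul_comm N, mul_comm I] at s0 hτ
  exact ((hg1 K j hK _ c _ (pos_list hp hA) hc (cop_list cp.coprime_mul_left_right hA)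
    s2).2.2.2.2 _ _ τ hN cp.coprime_mul_right_right s0 ch.lev.cn hτ).1

theorem il_perm {A B : List ℕ} (h : A.Perm B) : il j P A = il j P B := (h.map _).prod_eq

end arith

theorem ex_mul' {σ σ' : ℂ ≃+* ℂ} {g g' : GQ} (h : Ex σ g) (h' : Ex σ' g') : Ex (σ * σ') (g * g') :=
  fun a => by rw [AlgEquiv.mul_apply, ← h, ← h']; rfl

theorem rat_of {p : ℕ} {s : LS} (h : Zq p s) : RatS s := fun n => by
  rcases lt_or_ge n 0 with k | k
  · exact ⟨0, by rw [h.1 n k]; simp⟩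
  obtain ⟨n, rfl⟩ := Int.eq_ofNat_of_zero_le k
  obtain ⟨k, d, hd, e⟩ := h.2 n
  have d0 : (d : ℂ) ≠ 0 := Nat.cast_ne_zero.2 fun z => hd (z ▸ dvd_zero p)
  exact ⟨k / d, by push_cast; rw [← e]; field_simp⟩

/-- **the depleted form is the depleted function at the conjugates of Heegner points** -/
theorem valq (mpc : MPC) (vex : VEX) (hg1 : HG1) (rc2 : P004K.RC2) (tr0 : TR0) {p N : ℕ} {a : ℕ → ℤ}
    {S : List ℕ} (hN : 0 < N) (hp : ∀ l ∈ S, l.Prime) (pS : p ∈ S) {u : Mer}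
    (hu : u ∈ MF (Gamma0 (N * S.prod ^ 2))) {s : LS} (hs : ExM 1 s u) (hz : Zq p s)
    (hc : Cq p (dp S.prod a) s) {P : ℕ → Ideal (𝓞 Qb)}
    (hP : ∀ l ∈ S, (P l).IsPrime ∧ (l : 𝓞 Qb) ∈ P l) {A : Type} [CommRing A] (κ : A →+* Qb)
    (hκ : ∀ x, Ip (P p) (κ x)) {π D : A} (p0 : κ π ≠ 0) (p1 : Zp (P p) (κ π)) (hπ : π ∣ p)
    {T L : List ℕ} (hT : ∀ l ∈ T, l ∈ S)
    (hL : ∀ l ∈ L, l ∈ S) (nd : L.Nodup) {α β : ℕ → ℤ} {W : A⟦X⟧} (hW : Sr π D W α β a S L)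
    {F : ℍ → ℂ} (hF : F ∈ Hol) (hm : inc F hF ∈ MF (Gamma0 T.prod))
    (hx : ExM 1 (ls 0 (map ((io : Qb →+* ℂ).comp κ) W)) (inc F hF)) :
    ∃ T₀ : ℕ, ∀ δ, T₀ ≤ δ → Squarefree δ →
    ∀ (K : Type) [Field K] [NumberField K] (j : K →+* Qb), Iq K → ∀ θ : 𝓞 K,
    θ ^ 2 = -(δ : 𝓞 K) → ∀ I I' Q φ, Ch j N I I' S P Q φ →
    ∀ c : ℕ, 0 < c → c.Coprime (N * S.prod) → ∀ h : GQ → Qb,
    (∀ g ∈ GK j, ∀ σ τ τ', Ex σ g → Hp (JJ j) T.prod (il j P T) c τ → Cj0 σ T.prod τ τ' →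
      F τ' = io (h g)) →
    ∀ g ∈ GK j, Ip (P p) (h g) ∧ ∀ σ τ τ', Ex σ g →
      Hp (JJ j) (N * S.prod ^ 2) (IM j I S P) c τ → Cj0 σ (N * S.prod ^ 2) τ τ' →
      ∀ y : Qb, Val τ' u (io y) → Zp (P p) (κ D * y - dpl α β φ h L g) := by
  have pp := hp p pS
  have P0 : P p ≠ ⊥ := fun e =>
    pp.ne_zero (Nat.cast_eq_zero.1 (Ideal.mem_bot.1 (e ▸ (hP p pS).2)))
  obtain ⟨V, hV⟩ := vex (P p) (hP p pS).1 P0
  have one : (1 : 𝓞 Qb) ∉ P p := fun h => (hP p pS).1.ne_top ((Ideal.eq_top_iff_one _).2 h)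
  have v1 : ∀ x : 𝓞 Qb, x ∈ P p → V (io (x : Qb)) < 1 := fun x h =>
    (hV.2 _).2.1 ⟨1, x, one, h, by simp⟩
  have v2 : ∀ x, V ((io : Qb →+* ℂ).comp κ x) ≤ 1 := fun x => (hV.2 _).1.1 (hκ x)
  have v3 : V p < 1 := by simpa using v1 p (hP p pS).2
  let U := (S ++ S) ++ (T ++ (L ++ L))
  have hS2 : ∀ l ∈ S ++ S, l ∈ S := fun l h => (List.mem_append.1 h).elim id id
  have hL2 : ∀ l ∈ L ++ L, l ∈ S := fun l h => (List.mem_append.1 h).elim (hL l) (hL l)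
  have hT2 : ∀ l ∈ T ++ (L ++ L), l ∈ S := fun l h => (List.mem_append.1 h).elim (hT l) (hL2 l)
  have hU : ∀ l ∈ U, l ∈ S := fun l h => (List.mem_append.1 h).elim (hS2 l) (hT2 l)
  have eM : N * U.prod = N * S.prod ^ 2 * (T ++ (L ++ L)).prod := by
    simp only [U, List.prod_append]
    ring
  have e0 : N * (S ++ S).prod = N * S.prod ^ 2 := by rw [List.prod_append, pow_two]
  have hM : 0 < N * U.prod := Nat.mul_pos hN (pos_list hp hU)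
  have hM0 : 0 < N * S.prod ^ 2 := e0 ▸ Nat.mul_pos hN (pos_list hp hS2)
  obtain ⟨T₀, hT₀⟩ := cmp (α := α) (β := β) mpc (hP p pS).1 P0 hV pp v3 v2
    (fun z => p0 (P004K.io_inj (z.trans (map_zero _).symm))) hπ hM hp pS nd hL
    (by rw [eM, List.prod_append, List.prod_append, pow_two]; exact dvd_mul_left _ _) hW hF hm hx
    (MF_mono (G0_le (eM ▸ dvd_mul_right _ _)) hu) hs hz hc
  refine ⟨T₀, fun δ d1 d2 K _ _ j hK θ hθ I I' Q φ ch c c0 cp h hh g hg => ?_⟩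
  have cS := cp.coprime_mul_left_right
  have cN := cp.coprime_mul_right_right
  have sp := sp_list hp ch.spl U hU _ _ _ hN ch.lev ch.cop
  have le : I * il j P U ≤ below j (P p) := Ideal.mul_le_right.trans
    (Ideal.le_of_dvd (List.dvd_prod (List.mem_map_of_mem (by simp [U, pS]))))
  have c2 : (c : 𝓞 Qb) ∉ P p := not_mem (hP p pS).1 (hP p pS).2
    (cS.coprime_dvd_right (List.dvd_prod pS)).symm P0
  obtain ⟨τ₁, h1⟩ := (hg1 K j hK _ c _ hM c0 (cN.mul_right (cop_list cS hU)) sp.cn).1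
  have key : ∀ σ τ₁', Ex σ g → Cj0 σ (N * U.prod) τ₁ τ₁' → ∀ B : List ℕ, B.Subperm (L ++ L) →
      F (vv B.prod τ₁') = io (h (g * (B.map φ).prod)) := fun σ τ₁' hσ cj B sb => by
    obtain ⟨B', pm⟩ : ∃ B', (L ++ L).Perm (B' ++ B) := by
      obtain ⟨l, k1, k2⟩ := sb
      obtain ⟨L', pm⟩ := k2.exists_perm_append
      exact ⟨L', (pm.trans (k1.append_right L')).trans List.perm_append_comm⟩
    have m0 : ∀ l ∈ B' ++ B, l ∈ S := fun l k => hL2 l (pm.mem_iff.2 k)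
    have m1 : ∀ l ∈ B, l ∈ S := fun l k => m0 l (List.mem_append_right _ k)
    have m2 : ∀ l ∈ S ++ S ++ B', l ∈ S := fun l k => (List.mem_append.1 k).elim (hS2 l)
      fun k => m0 l (List.mem_append_left _ k)
    have m3 : ∀ l ∈ T ++ (S ++ S ++ B'), l ∈ S := fun l k => (List.mem_append.1 k).elim (hT l) (m2 l)
    have pU : U.Perm ((T ++ (S ++ S ++ B')) ++ B) := by
      refine ((pm.append_left T).append_left (S ++ S)).trans ?_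
      rw [List.perm_iff_count]
      intro x
      simp only [List.count_append]
      ring
    have h2 : Hp (JJ j) (N * U.prod) (I * il j P U) c τ₁ := h1
    rw [pU.prod_eq, il_perm pU] at h2
    rw [pU.prod_eq, List.prod_append, ← mul_assoc] at cj
    obtain ⟨k1, k2⟩ := hp_dn hg1 rc2 hK hp pS hP ch c0 cS hN cN ch.lev ch.cop m3 m1 h2
    obtain ⟨σ', hσ'⟩ := ex_ex (B.map φ).prod
    have k3 := (k2 σ' hσ').trans (cj_V (Nat.mul_pos hN (pos_list hp m3)) (pos_list hp m1) cj)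
    have k4 := (hp_dn hg1 rc2 hK hp pS hP ch c0 cS hN cN ch.lev ch.cop hT m2 k1).1
    rw [List.prod_append, mul_left_comm] at k3
    exact hh _ (mul_mem hg (ar_list rc2 hK hp pS hP ch c0 cS B m1).2.1) _ τ₁ _ (ex_mul' hσ hσ')
      (hp_N hg1 hK hN hp ch c0 cp hT k4)
      (cj_dn (pos_list hp hT) (Nat.mul_pos hN (pos_list hp m2)) k3)
  constructor
  · obtain ⟨σ, hσ⟩ := ex_ex g
    obtain ⟨τ₁', cj⟩ := ex_cj0 σ hM τ₁
    have k1 := (hT₀ δ d1 d2 K j hK c θ _ _ hθ sp le c2 g hg σ τ₁ τ₁' hσ h1 cj).1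
    have k2 := key σ τ₁' hσ cj [] List.nil_subperm
    have e : vv 1 τ₁' = τ₁' := UpperHalfPlane.ext (by rw [coe_vv one_pos]; simp)
    rw [List.prod_nil, e, List.map_nil, List.prod_nil, mul_one] at k2
    rw [(hV.2 _).1, ← k2]
    exact k1
  intro σ τ τ' hσ hτ cj y hy
  obtain ⟨τ₁', cj1⟩ := ex_cj0 σ hM τ₁
  have k0 := (hp_dn hg1 rc2 hK hp pS hP ch c0 cS hN cN ch.lev ch.cop hS2 hT2 h1).1
  have eI : I * il j P (S ++ S) = IM j I S P := by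
    rw [IM, il, List.map_append, List.prod_append, pow_two]
  rw [e0, eI] at k0
  obtain ⟨γ, hγ, e⟩ := ((hg1 K j hK _ c _ hM0 c0 (e0 ▸ cN.mul_right (cop_list cS hS2))
    (sp_sq hp ch.spl (fun _ => id) hN ch.lev ch.cop).cn).2.1 τ τ₁ hτ).1 k0
  have c3 : Cj0 σ (N * S.prod ^ 2) τ τ₁' :=
    ((cj_dn hM0 (pos_list hp hT2) (eM ▸ cj1)).src hM0).2 ⟨γ⁻¹, inv_mem hγ, by rw [← e, inv_smul_smul]⟩
  have c4 : Cj0 1 (N * S.prod ^ 2) τ' τ₁' := by simpa using (cj.symm hM0).trans c3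
  have y1 : Val τ₁' u (io y) := tr0 1 _ τ' τ₁' hM0 c4 u hu s hs (rat_of hz) _ hy
  have k1 := (hT₀ δ d1 d2 K j hK c θ _ _ hθ sp le c2 g hg σ τ₁ τ₁' hσ h1 cj1).2 _ y1
  have k2 := dpl_dq (α := α) (β := β) h φ (fun k => F (vv k τ₁')) L 1 g fun B sb => by
    rw [one_mul, key σ τ₁' hσ cj1 B sb]
  rw [(hV.2 _).2, map_sub, map_mul, ← k2]
  exact k1.trans_lt ((hV.2 _).2.1 p1)

/-- the embedding of the coefficients -/
def ic {A : Type} [CommRing A] (κ : A →+* 𝓞 Qb) : A →+* ℂ :=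
  (io : Qb →+* ℂ).comp ((algebraMap (𝓞 Qb) Qb).comp κ)

theorem ic_apply {A : Type} [CommRing A] (κ : A →+* 𝓞 Qb) (x : A) : ic κ x = io (κ x : Qb) := rfl

/-- the same with integral coefficients -/
theorem val (mpc : MPC) (vex : VEX) (hg1 : HG1) (rc2 : P004K.RC2) (tr0 : TR0) {p N : ℕ} {a : ℕ → ℤ}
    {S : List ℕ} (hN : 0 < N) (hp : ∀ l ∈ S, l.Prime) (pS : p ∈ S) {u : Mer}
    (hu : u ∈ MF (Gamma0 (N * S.prod ^ 2))) {s : LS} (hs : ExM 1 s u) (hz : Zq p s)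
    (hc : Cq p (dp S.prod a) s) {P : ℕ → Ideal (𝓞 Qb)}
    (hP : ∀ l ∈ S, (P l).IsPrime ∧ (l : 𝓞 Qb) ∈ P l) {A : Type} [CommRing A] (κ : A →+* 𝓞 Qb)
    {π D : A} (p0 : κ π ≠ 0) (p1 : κ π ∈ P p) (hπ : π ∣ p) {T L : List ℕ} (hT : ∀ l ∈ T, l ∈ S)
    (hL : ∀ l ∈ L, l ∈ S) (nd : L.Nodup) {α β : ℕ → ℤ} {W : A⟦X⟧} (hW : Sr π D W α β a S L)
    {F : ℍ → ℂ} (hF : F ∈ Hol) (hm : inc F hF ∈ MF (Gamma0 T.prod))
    (hx : ExM 1 (ls 0 (map (ic κ) W)) (inc F hF)) :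
    ∃ T₀ : ℕ, ∀ δ, T₀ ≤ δ → Squarefree δ →
    ∀ (K : Type) [Field K] [NumberField K] (j : K →+* Qb), Iq K → ∀ θ : 𝓞 K,
    θ ^ 2 = -(δ : 𝓞 K) → ∀ I I' Q φ, Ch j N I I' S P Q φ →
    ∀ c : ℕ, 0 < c → c.Coprime (N * S.prod) → ∀ h : GQ → Qb,
    (∀ g ∈ GK j, ∀ σ τ τ', Ex σ g → Hp (JJ j) T.prod (il j P T) c τ → Cj0 σ T.prod τ τ' →
      F τ' = io (h g)) →
    ∀ g ∈ GK j, Ip (P p) (h g) ∧ ∀ σ τ τ', Ex σ g →
      Hp (JJ j) (N * S.prod ^ 2) (IM j I S P) c τ → Cj0 σ (N * S.prod ^ 2) τ τ' →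
      ∀ y : Qb, Val τ' u (io y) → Zp (P p) (κ D * y - dpl α β φ h L g) :=
  have one : (1 : 𝓞 Qb) ∉ P p := fun h => (hP p pS).1.ne_top ((Ideal.eq_top_iff_one _).2 h)
  valq mpc vex hg1 rc2 tr0 hN hp pS hu hs hz hc hP ((algebraMap (𝓞 Qb) Qb).comp κ)
    (fun x => ⟨1, κ x, one, by simp⟩) (fun z => p0 (RingOfIntegers.ext z))
    ⟨1, κ π, one, p1, by simp⟩ hπ hT hL nd hW hF hm hx

end Vale.Agent.P014Z.Qf
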