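import Vale.Agent.P004R.Qf
import Vale.Agent.P004F.Qx.Dep

/-! # P014Z, block QF: a depleted form is a depleted holomorphic function at Heegner points -/

set_option autoImplicit false
set_option linter.all false

open UpperHalfPlane NumberField CongruenceSubgroup PowerSeries
open scoped MatrixGroups Classical

noncomputable section

namespace Vale.Agent.P014Z.Qf

open Vale.Agent.P022 Vale.Agent.P022.H218.L3 Vale.Agent.P022.H231.L3 Vale.Agent.P022.H236.L3
  Vale.Agent.P022.H542.L3 P027H Vale.Agent.P027M.M P004K P004F.Qx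
open P004R.Qf (v_int Ae Ae.all ls_zero_eq val_add val_mul val_const val_uniq val_inc
  sp_list sp_sq sp_one sp_mem cop_mul cop_mem cn_nm not_mem ex_mul)
open P004Z.EF (Val RatS)
open P004F.Qx.De (vv coe_vv cj_dn cj_V)

/-- depletion: the factor at `p` is `1 - α p V + β p V²`, `V` the right shift by `φ p` -/
def dpl (α β : ℕ → ℤ) (φ : ℕ → GQ) (h : GQ → Qb) : List ℕ → GQ → Qb
  | [] => h
  | p :: L => fun g => dpl α β φ h L g - α p * dpl α β φ h L (g * φ p) +
      β p * dpl α β φ h L (g * φ p ^ 2)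

/-- depletion of a family which is indexed by the level -/
def dq {A : Type} [CommRing A] (α β : ℕ → ℤ) (F : ℕ → A) : List ℕ → ℕ → A
  | [] => F
  | p :: L => fun k => dq α β F L k - α p * dq α β F L (k * p) + β p * dq α β F L (k * p ^ 2)

variable {α β : ℕ → ℤ}

theorem dq_rel {A B : Type} [CommRing A] [CommRing B] (r : A → B → Prop) (hi : ∀ n : ℤ, r n n)
    (ha : ∀ x y x' y', r x x' → r y y' → r (x + y) (x' + y'))
    (hm : ∀ x y x' y', r x x' → r y y' → r (x * y) (x' * y')) (F : ℕ → A) (G : ℕ → B)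
    (L : List ℕ) : ∀ k, (∀ d, d ∣ L.prod ^ 2 → r (F (k * d)) (G (k * d))) →
    r (dq α β F L k) (dq α β G L k) := by
  induction L with
  | nil => intro k h; simpa [dq] using h 1 (one_dvd _)
  | cons p L ih =>
    intro k h
    rw [List.prod_cons, mul_pow] at h
    have h0 := ih k fun d hd => h d (hd.mul_left _)
    have h1 := ih (k * p) fun d hd => by
      rw [mul_assoc]
      exact h _ (mul_dvd_mul (dvd_pow_self p two_ne_zero) hd)
    have h2 := ih (k * p ^ 2) fun d hd => by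
      rw [mul_assoc]
      exact h _ (mul_dvd_mul_left _ hd)
    have := ha _ _ _ _ (ha _ _ _ _ h0 (hm _ _ _ _ (hi (-α p)) h1)) (hm _ _ _ _ (hi (β p)) h2)
    simpa only [dq, Int.cast_neg, neg_mul, ← sub_eq_add_neg] using this

theorem dpl_dq (h : GQ → Qb) (φ : ℕ → GQ) (F : ℕ → ℂ) (L : List ℕ) : ∀ (k : ℕ) (g : GQ),
    (∀ L' : List ℕ, L'.Subperm (L ++ L) → F (k * L'.prod) = io (h (g * (L'.map φ).prod))) →
    dq α β F L k = io (dpl α β φ h L g) := by
  induction L with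
  | nil => intro k g e; simpa [dq, dpl] using e [] (List.nil_subperm)
  | cons p L ih =>
    intro k g e
    have pm : ((p :: L) ++ (p :: L)).Perm (p :: p :: (L ++ L)) := List.perm_middle.cons p
    simp only [pm.subperm_left] at e
    have up : ∀ {A B : List ℕ}, A.Subperm B → A.Subperm (p :: B) := fun s =>
      s.trans (List.sublist_cons_self _ _).subperm
    rw [dq, dpl]
    beta_reduce
    rw [ih k g fun L' s => e L' (up (up s)), ih (k * p) (g * φ p) fun L' s => by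
        simpa only [List.prod_cons, List.map_cons, ← mul_assoc] using
          e _ (up ((List.subperm_cons p).2 s)),
      ih (k * p ^ 2) (g * φ p ^ 2) fun L' s => by
        simpa only [List.prod_cons, List.map_cons, ← mul_assoc, pow_two] using
          e _ ((List.subperm_cons p).2 ((List.subperm_cons p).2 s))]
    simp only [map_add, map_sub, map_mul, map_intCast]

/-! ### series -/

section series

variable {A : Type} [CommRing A]

/-- `W (X ^ k)` -/
def xp (W : A⟦X⟧) (k : ℕ) : A⟦X⟧ := if h : 0 < k then expand k h.ne' W else 0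

/-- the recursion at `l` modulo `π` -/
def Rec (π : A) (W : A⟦X⟧) (a b : ℤ) (l : ℕ) : Prop := ∀ m,
  π ∣ coeff (l * m) W - a * coeff m W + if l ∣ m then b * coeff (m / l) W else 0

/-- the coefficients of the depleted series -/
theorem co_dq {π : A} {W : A⟦X⟧} (L : List ℕ) (hL : L.Nodup) (hp : ∀ p ∈ L, p.Prime)
    (hr : ∀ l ∈ L, Rec π W (α l) (β l) l) (n : ℕ) : ∀ k, 0 < k →
    π ∣ coeff n (dq α β (xp W) L k) -
      if k ∣ n ∧ (n / k).Coprime L.prod then coeff (n / k) W else 0 := by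
  induction L with
  | nil =>
    intro k hk
    rw [dq, xp, dif_pos hk, coeff_expand, List.prod_nil]
    simp
  | cons p L ih =>
    intro k hk
    have h1 := hp p List.mem_cons_self
    have h2 : ∀ q ∈ L, q.Prime := fun q hq => hp q (List.mem_cons_of_mem _ hq)
    have cp : p.Coprime L.prod := Nat.coprime_list_prod_right_iff.2 fun q hq =>
      (Nat.coprime_primes h1 (h2 q hq)).2 fun e => (List.nodup_cons.1 hL).1 (e ▸ hq)
    replace ih := ih (List.nodup_cons.1 hL).2 h2 fun q hq => hr q (List.mem_cons_of_mem _ hq)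
    have e : coeff n (dq α β (xp W) (p :: L) k) = coeff n (dq α β (xp W) L k) -
        α p * coeff n (dq α β (xp W) L (k * p)) + β p * coeff n (dq α β (xp W) L (k * p ^ 2)) := by
      rw [dq, map_add, map_sub, show (α p : A⟦X⟧) = C (α p : A) by simp,
        show (β p : A⟦X⟧) = C (β p : A) by simp, coeff_C_mul, coeff_C_mul]
    have k0 := ((ih k hk).sub ((ih _ (Nat.mul_pos hk h1.pos)).mul_left (α p))).add
      ((ih _ (Nat.mul_pos hk (pow_pos h1.pos 2))).mul_left (β p))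
    suffices s : π ∣ (if k ∣ n ∧ (n / k).Coprime L.prod then coeff (n / k) W else 0) -
        α p * (if k * p ∣ n ∧ (n / (k * p)).Coprime L.prod then coeff (n / (k * p)) W else 0) +
        β p * (if k * p ^ 2 ∣ n ∧ (n / (k * p ^ 2)).Coprime L.prod then coeff (n / (k * p ^ 2)) W
          else 0) - if k ∣ n ∧ (n / k).Coprime (p :: L).prod then coeff (n / k) W else 0 by
      convert k0.add s using 1
      rw [e]
      ring
    rw [List.prod_cons]
    simp only [Nat.coprime_mul_iff_right (m := p)]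
    by_cases a1 : k ∣ n
    swap
    · rw [if_neg fun h => a1 h.1, if_neg fun h => a1 (dvd_of_mul_right_dvd h.1),
        if_neg fun h => a1 (dvd_of_mul_right_dvd h.1), if_neg fun h => a1 h.1]
      simp
    obtain ⟨m, rfl⟩ := a1
    simp only [Nat.mul_dvd_mul_iff_left hk, Nat.mul_div_mul_left _ _ hk,
      Nat.mul_div_cancel_left _ hk, dvd_mul_right, true_and]
    by_cases a2 : p ∣ m
    swap
    · rw [if_neg fun h : p ∣ m ∧ _ => a2 h.1,
        if_neg fun h : p ^ 2 ∣ m ∧ _ => a2 ((dvd_pow_self p two_ne_zero).trans h.1)]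
      rw [mul_zero, mul_zero, sub_zero, add_zero,
        if_congr (and_iff_right (h1.coprime_iff_not_dvd.2 a2).symm) rfl rfl, sub_self]
      exact dvd_zero _
    obtain ⟨l, rfl⟩ := a2
    have s := hr p List.mem_cons_self l
    rw [if_neg (c := (p * l).Coprime p ∧ _) fun h => h1.coprime_iff_not_dvd.1 h.1.symm
      (dvd_mul_right p l), pow_two, Nat.mul_div_mul_left _ _ h1.pos, Nat.mul_div_cancel_left _ h1.pos,
      sub_zero]
    simp only [Nat.mul_dvd_mul_iff_left h1.pos, dvd_mul_right, true_and, Nat.coprime_mul_iff_left]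
    by_cases a3 : l.Coprime L.prod
    · rw [if_pos a3, if_pos ⟨cp, a3⟩]
      by_cases a4 : p ∣ l
      · rwa [if_pos ⟨a4, a3.coprime_div_left a4⟩, ← if_pos (t := β p * coeff (l / p) W) (e := 0) a4]
      · rwa [if_neg fun h => a4 h.1, mul_zero, ← if_neg (t := β p * coeff (l / p) W) (e := 0) a4]
    · rw [if_neg a3, if_neg fun h : _ ∧ _ => a3 h.2, if_neg]
      · simp
      · rintro ⟨⟨l', rfl⟩, h⟩
        rw [Nat.mul_div_cancel_left _ h1.pos] at h
        exact a3 (cp.mul_left h)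

end series

/-! ### functions -/

/-- `x (k τ)` -/
def vk (x : Mer) (k : ℕ) : Mer := if h : 0 < k then pbz !![(k : ℤ), 0; 0, 1] (diag_pos h) x else 0

theorem G0_le {k M : ℕ} (h : k ∣ M) : Gamma0 M ≤ Gamma0 k := fun γ hγ =>
  mem_G0.2 ((Int.natCast_dvd_natCast.2 h).trans (mem_G0.1 hγ))

theorem vk_mem {x : Mer} {M k M' : ℕ} (hM : 0 < M) (hx : x ∈ MF (Gamma0 M)) (d : M * k ∣ M') :
    vk x k ∈ MF (Gamma0 M') := by
  rw [vk]
  split_ifs with hk
  swap
  · exact zero_mem _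
  refine MF_mono (G0_le d) ?_
  have h := (sPbM _ (diag_pos hk)).1 M hM x (MF_mono (fun γ hγ =>
    Gamma0_mem.2 (Gamma_mem.1 hγ).2.2.1) hx)
  have : NeZero (M * (!![(k : ℤ), 0; 0, 1] : M2).det.natAbs) := ⟨by simp; omega⟩
  refine mem_MF_of_fixed _ h fun γ hγ => ?_
  obtain ⟨c, hc⟩ := mem_G0.1 (inv_mem hγ)
  have hd := γ⁻¹.det_coe
  rw [Matrix.det_fin_two] at hd
  push_cast at hc
  let g : SL(2, ℤ) := ⟨!![γ⁻¹ 0 0, k * γ⁻¹ 0 1; M * c, γ⁻¹ 1 1], by
    rw [Matrix.det_fin_two_of]; linear_combination hd + γ⁻¹ 0 1 * hc⟩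
  have e : !![(k : ℤ), 0; 0, 1] * ((γ⁻¹ : SL(2, ℤ)) : M2) = (g : M2) * !![(k : ℤ), 0; 0, 1] := by
    show _ = !![γ⁻¹ 0 0, k * γ⁻¹ 0 1; M * c, γ⁻¹ 1 1] * _
    clear g
    generalize γ⁻¹ = δ at hc
    ext i j
    fin_cases i <;> fin_cases j <;> simp [Matrix.mul_apply, Fin.sum_univ_two, hc] <;> ring
  have h1 : 0 < ((g : M2) * !![(k : ℤ), 0; 0, 1]).det := by
    rw [Matrix.det_mul]; exact mul_pos (SL_pos g) (diag_pos hk)
  have hg : g⁻¹ ∈ Gamma0 M := inv_mem (mem_G0.2 ⟨c, rfl⟩)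
  rw [← inv_inv γ, ← pbz_SL, ← pbz_mul _ _ (e ▸ h1), pbz_congr e _ h1,
    pbz_mul (SL_pos g) (diag_pos hk), pbz_SL, act_eq_self hx hg]

theorem val_vk {F : ℍ → ℂ} (hF : F ∈ Hol) {k : ℕ} (hk : 0 < k) (τ : ℍ) :
    Val τ (vk (inc F hF) k) (F (vv k τ)) := by
  have e : gl !![(k : ℤ), 0; 0, 1] (diag_pos hk) • τ = vv k τ :=
    UpperHalfPlane.ext ((dg_coe hk τ).trans (coe_vv hk τ).symm)
  rw [vk, dif_pos hk, pbz, pb_inc, ← e]
  exact val_inc τ _

section

variable {A : Type} [CommRing A] (ι : A →+* ℂ)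

theorem ex_vk {x : Mer} {W : A⟦X⟧} (h : ExM 1 (ls 0 (map ι W)) x) (k : ℕ) :
    ExM 1 (ls 0 (map ι (xp W k))) (vk x k) := by
  rw [xp, vk]
  split_ifs with hk
  · have h3 := h.mulTau hk (pb_pbz _ (diag_pos hk)) (dg_coe hk)
    have e : expand k hk.ne' (map ι W) = map ι (expand k hk.ne' W) := by
      ext n
      simp only [coeff_expand, coeff_map]
      split_ifs <;> simp
    rwa [sb_ls hk.ne' hk, mul_zero, e] at h3
  · simpa [ls_zero_eq] using ExM.const 1 0

theorem ex_dq {x : Mer} {W : A⟦X⟧} (h : ExM 1 (ls 0 (map ι W)) x) {M₀ M : ℕ} (h0 : 0 < M₀)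
    (hx : x ∈ MF (Gamma0 M₀)) (L : List ℕ) (hd : M₀ * L.prod ^ 2 ∣ M) :
    ExM 1 (ls 0 (map ι (dq α β (xp W) L 1))) (dq α β (vk x) L 1) ∧
      dq α β (vk x) L 1 ∈ MF (Gamma0 M) := by
  refine dq_rel (fun Y y => ExM 1 (ls 0 (map ι Y)) y ∧ y ∈ MF (Gamma0 M)) (fun n => ⟨?_, ?_⟩)
    (fun x y x' y' h h' => ⟨?_, add_mem h.2 h'.2⟩) (fun x y x' y' h h' => ⟨?_, mul_mem h.2 h'.2⟩)
    _ _ L 1 fun d k => ⟨ex_vk ι h _, vk_mem h0 hx (by
      rw [one_mul]; exact (mul_dvd_mul_left _ k).trans hd)⟩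
  · have := ExM.const 1 (n : ℂ)
    simpa only [ls_zero_eq, map_intCast] using this
  · exact intCast_mem _ n
  · simpa only [ls_zero_eq, map_add] using h.1.add h'.1
  · simpa only [ls_zero_eq, map_mul] using h.1.mul h'.1

variable {ι} {V : AbsoluteValue ℂ ℝ} {p : ℕ}

theorem v_one (hV : IsNonarchimedean V) (hp : p.Prime) (h3 : V p < 1) {d : ℕ} (hd : ¬ p ∣ d) :
    V d = 1 := by
  have d1 : V d ≤ 1 := by simpa using v_int hV d
  refine le_antisymm d1 ?_
  by_contra h
  obtain ⟨a, b, e⟩ : IsCoprime (p : ℤ) d := (hp.coprime_iff_not_dvd.2 hd).cast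
  have e' : (a : ℂ) * p + b * d = 1 := by exact_mod_cast e
  have h4 := hV (a * p) (b * d)
  rw [e', V.map_one, V.map_mul, V.map_mul] at h4
  refine absurd h4 (not_le.2 (max_lt ?_ ?_))
  · nlinarith [v_int hV a, V.nonneg p, V.nonneg a]
  · nlinarith [v_int hV b, V.nonneg d, V.nonneg b, not_le.1 h]

/-- the coefficients of the two series agree modulo `π` -/
theorem coef (hV : IsNonarchimedean V) (hp : p.Prime) (h3 : V p < 1) (hι : ∀ x, V (ι x) ≤ 1)
    {π D : A} (p0 : ι π ≠ 0) (hπ : π ∣ p) {R : ℕ} {a : ℕ → ℤ} (hR : p ∣ R) {s : LS} (hz : Zq p s)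
    (hc : Cq p (dp R a) s) {W : A⟦X⟧} (h1 : ∀ n : ℕ, n.Coprime R → π ∣ n * coeff n W - D * a n)
    (h2 : ∀ n : ℕ, ¬ n.Coprime R → π ∣ coeff n W) (n : ℤ) :
    V ((HahnSeries.C (ι π)⁻¹ * (HahnSeries.C (ι D) * s +
      HahnSeries.C (-1 : ℂ) * ls 0 (map ι W))).coeff n) ≤ 1 := by
  simp only [HahnSeries.C_mul_eq_smul, HahnSeries.coeff_smul, HahnSeries.coeff_add, smul_eq_mul]
  rcases lt_or_ge n 0 with h | h
  · rw [hz.1 n h, coeff_ls_of_lt _ _ h]
    simp
  obtain ⟨n, rfl⟩ := Int.eq_ofNat_of_zero_le h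
  have e := coeff_ls 0 (map ι W) n
  rw [zero_add, coeff_map] at e
  rw [e]
  obtain ⟨k, d, hd, e1⟩ := hc n
  obtain ⟨r, hr⟩ := hπ
  have hr' : (p : ℂ) = ι π * ι r := by rw [← map_mul, ← hr, map_natCast]
  have vd := v_one hV hp h3 hd
  have d0 : (d : ℂ) ≠ 0 := fun h => by simp [h] at vd
  have vk : V (ι (D * r * k) / d) ≤ 1 := by rw [map_div₀, vd, div_one]; exact hι _
  by_cases hn : n.Coprime R
  · have on : ¬ p ∣ n := hp.coprime_iff_not_dvd.1 (hn.coprime_dvd_right hR).symm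
    have vn := v_one hV hp h3 on
    have n0 : (n : ℂ) ≠ 0 := fun h => by simp [h] at vn
    obtain ⟨l, hl⟩ := h1 n hn
    have hl' := congrArg ι hl
    simp only [map_sub, map_mul, map_natCast, map_intCast] at hl'
    rw [dp, if_pos hn, hr'] at e1
    have e3 : (ι π)⁻¹ * (ι D * s.coeff n + -1 * ι (coeff n W)) = ι (D * r * k) / d + ι (-l) / n := by
      simp only [map_mul, map_neg, map_intCast]
      field_simp at e1 ⊢
      linear_combination ι D * e1 - d * hl'
    rw [e3]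
    exact (hV _ _).trans (max_le vk (by rw [map_div₀, vn, div_one]; exact hι _))
  · obtain ⟨l, hl⟩ := h2 n hn
    rw [dp, if_neg hn, hr'] at e1
    have e3 : (ι π)⁻¹ * (ι D * s.coeff n + -1 * ι (coeff n W)) = ι (D * r * k) / d + ι (-l) := by
      simp only [hl, map_mul, map_neg, map_intCast]
      push_cast at e1
      field_simp
      linear_combination ι D * e1
    rw [e3]
    exact (hV _ _).trans (max_le vk (hι _))

/-- the hypotheses on the series -/
structure Sr (π D : A) (W : A⟦X⟧) (α β : ℕ → ℤ) (a : ℕ → ℤ) (S L : List ℕ) : Prop where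
  rc : ∀ l ∈ L, Rec π W (α l) (β l) l
  van : ∀ l ∈ S, l ∉ L → ∀ m, π ∣ coeff (l * m) W
  cmp : ∀ n : ℕ, n.Coprime S.prod → π ∣ n * coeff n W - D * a n

/-- **the comparison** -/
theorem cmp (mpc : MPC) {P : Ideal (𝓞 Qb)} {M₀ M : ℕ} {S L : List ℕ} (hP : P.IsPrime)
    (P0 : P ≠ ⊥) (hV : Vp V P) (hp : p.Prime) (h3 : V p < 1) (hι : ∀ x, V (ι x) ≤ 1) {π D : A}
    (p0 : ι π ≠ 0) (hπ : π ∣ p) (hM : 0 < M) (hS : ∀ l ∈ S, l.Prime) (pS : p ∈ S) (hL : L.Nodup)
    (sb : ∀ l ∈ L, l ∈ S) (hd : M₀ * L.prod ^ 2 ∣ M) {a : ℕ → ℤ} {W : A⟦X⟧}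
    (hW : Sr π D W α β a S L) {F : ℍ → ℂ} (hF : F ∈ Hol) (hm : inc F hF ∈ MF (Gamma0 M₀))
    (hx : ExM 1 (ls 0 (map ι W)) (inc F hF)) {u : Mer} (hu : u ∈ MF (Gamma0 M)) {s : LS}
    (hs : ExM 1 s u) (hz : Zq p s) (hc : Cq p (dp S.prod a) s) :
    Ae P M fun τ => V (F τ) ≤ 1 ∧ ∀ y, Val τ u y →
      V (ι D * y - dq α β (fun k => F (vv k τ)) L 1) ≤ V (ι π) := by
  have h0 : 0 < M₀ := Nat.pos_of_dvd_of_pos ((dvd_mul_right _ _).trans hd) hM
  obtain ⟨x1, x2⟩ := ex_dq (α := α) (β := β) ι hx h0 hm L hd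
  have c0 := fun n => co_dq L hL (fun l h => hS l (sb l h)) hW.rc n 1 one_pos
  simp only [one_dvd, true_and, Nat.div_one] at c0
  have a1 : Ae P M fun τ => ∃ c, V c ≤ 1 ∧ Val τ (inc F hF) c :=
    mpc V P M hP P0 hV hM _ (MF_mono (G0_le ((dvd_mul_right _ _).trans hd)) hm) _ hx fun n => by
      rcases lt_or_ge n 0 with h | h
      · rw [coeff_ls_of_lt _ _ h]
        simp
      obtain ⟨n, rfl⟩ := Int.eq_ofNat_of_zero_le h
      have e := coeff_ls 0 (map ι W) n
      rw [zero_add, coeff_map] at e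
      rw [e]
      exact hι _
  have a2 : Ae P M fun τ => ∃ c, V c ≤ 1 ∧ Val τ (algebraMap ℂ Mer (ι π)⁻¹ *
      (algebraMap ℂ Mer (ι D) * u + algebraMap ℂ Mer (-1) * dq α β (vk (inc F hF)) L 1)) c :=
    mpc V P M hP P0 hV hM _ (mul_mem (algebraMap_mem _ _) (add_mem (mul_mem (algebraMap_mem _ _) hu)
      (mul_mem (algebraMap_mem _ _) x2))) _
      ((ExM.const 1 _).mul (((ExM.const 1 _).mul hs).add ((ExM.const 1 _).mul x1)))
      (coef hV.1 hp h3 hι p0 hπ (List.dvd_prod pS) hz hc (fun n hn => by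
        have k := c0 n
        rw [if_pos (Nat.coprime_list_prod_right_iff.2 fun l h =>
          hn.coprime_dvd_right (List.dvd_prod (sb l h)))] at k
        convert (k.mul_left n).add (hW.cmp n hn) using 1
        ring) fun n hn => by
        have k := c0 n
        split_ifs at k with h
        · rw [Nat.coprime_list_prod_right_iff] at hn h
          push Not at hn
          obtain ⟨l, hl, k1⟩ := hn
          obtain ⟨m, rfl⟩ : l ∣ n := by
            by_contra k2
            exact k1 ((hS l hl).coprime_iff_not_dvd.2 k2).symm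
          simpa using k.add (hW.van l hl (fun e => k1 (h l e)) m)
        · simpa using k)
  refine (a1.and a2).mono fun τ ⟨⟨c', b0, b1⟩, c, c1, c2⟩ =>
    ⟨val_uniq b1 (val_inc τ hF) ▸ b0, fun y hy => ?_⟩
  have b2 : Val τ (dq α β (vk (inc F hF)) L 1) (dq α β (fun k => F (vv k τ)) L 1) := by
    refine dq_rel (Val τ) (fun n => by simpa only [map_intCast] using val_const τ (n : ℂ))
      (fun _ _ _ _ => val_add) (fun _ _ _ _ => val_mul) _ _ L 1 fun k hk => ?_
    rw [one_mul]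
    exact val_vk hF (Nat.pos_of_dvd_of_pos ((hk.mul_left _).trans hd) hM) τ
  have e := val_uniq c2 (val_mul (val_const τ _) (val_add (val_mul (val_const τ _) hy)
    (val_mul (val_const τ _) b2)))
  rw [show ι D * y - dq α β (fun k => F (vv k τ)) L 1 = ι π * c by rw [e]; field_simp; ring,
    V.map_mul]
  exact mul_le_of_le_one_right (V.nonneg _) c1

end

end Vale.Agent.P014Z.Qf
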